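import Crest.Agent.X212.Sard93.Loc

/-!
# Row 212, NT-0 (helper64): a perturbation that kills a two-dimensional cokernel
-/

set_option autoImplicit false
open Set Function Filter Topology

namespace Crest.Agent.X212.Nt64

/-- the determinant of a map of the plane -/
def dt (N : (Fin 2 → ℝ) →ₗ[ℝ] Fin 2 → ℝ) : ℝ :=
  N ![1, 0] 0 * N ![0, 1] 1 - N ![0, 1] 0 * N ![1, 0] 1

theorem ap (N : (Fin 2 → ℝ) →ₗ[ℝ] Fin 2 → ℝ) (s t : ℝ) (i : Fin 2) :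
    N ![s, t] i = s * N ![1, 0] i + t * N ![0, 1] i := by
  have : (![s, t] : Fin 2 → ℝ) = s • ![1, 0] + t • ![0, 1] := by ext j; fin_cases j <;> simp
  rw [this, map_add, map_smul, map_smul]; rfl

theorem surj_of_dt {N : (Fin 2 → ℝ) →ₗ[ℝ] Fin 2 → ℝ} (h : dt N ≠ 0) : Surjective N := fun w => by
  refine ⟨![(N ![0, 1] 1 * w 0 - N ![0, 1] 0 * w 1) / dt N,
    (N ![1, 0] 0 * w 1 - N ![1, 0] 1 * w 0) / dt N], funext fun i => ?_⟩
  rw [ap]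
  fin_cases i <;> field_simp <;> simp only [dt, Fin.zero_eta, Fin.mk_one] <;> ring

theorem exists_dt {P : Type} [AddCommGroup P] [Module ℝ P]
    (N : P →ₗ[ℝ] (Fin 2 → ℝ) →ₗ[ℝ] Fin 2 → ℝ)
    (h : ∀ a ≠ 0, ∀ χ ≠ 0, ∃ p, χ ⬝ᵥ N p a ≠ 0) : ∃ p, dt (N p) ≠ 0 := by
  by_contra k
  push Not at k
  have k2 : ∀ s t u v : ℝ, (∀ p, u * (s * N p ![1, 0] 0 + t * N p ![0, 1] 0) +
      v * (s * N p ![1, 0] 1 + t * N p ![0, 1] 1) = 0) → (s = 0 ∧ t = 0) ∨ (u = 0 ∧ v = 0) :=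
    fun s t u v e => by
      by_contra n
      rw [not_or] at n
      obtain ⟨p, hp⟩ := h ![s, t] (fun z => n.1 ⟨congrFun z 0, congrFun z 1⟩) ![u, v]
        (fun z => n.2 ⟨congrFun z 0, congrFun z 1⟩)
      exact hp (by simpa [dotProduct, Fin.sum_univ_two, ap (N p) s t] using e p)
  obtain ⟨p₀, h0⟩ := h ![1, 0] (fun z => one_ne_zero (congrFun z 0)) ![1, 0]
    (fun z => one_ne_zero (congrFun z 0))
  have a0 : N p₀ ![1, 0] 0 ≠ 0 := by simpa [dotProduct, Fin.sum_univ_two] using h0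
  have := k2 (-N p₀ ![0, 1] 0) (N p₀ ![1, 0] 0) (-N p₀ ![1, 0] 1) (N p₀ ![1, 0] 0) fun p => by
    have e0 := k p₀
    have e1 := k p
    have e2 := k (p₀ + p)
    simp only [dt, map_add, LinearMap.add_apply, Pi.add_apply] at e0 e1 e2
    linear_combination N p₀ ![1, 0] 0 * (e2 - e1 - e0) - N p ![1, 0] 0 * e0
  exact this.elim (fun z => a0 z.2) fun z => a0 z.2

theorem ev_dt (A N : (Fin 2 → ℝ) →ₗ[ℝ] Fin 2 → ℝ) (h : dt N ≠ 0) :
    ∀ᶠ ε in 𝓝[≠] (0 : ℝ), dt (A + ε • N) ≠ 0 := by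
  obtain ⟨β, e⟩ : ∃ β, ∀ ε : ℝ, dt (A + ε • N) = dt A + ε * (β + ε * dt N) :=
    ⟨dt (A + N) - dt A - dt N, fun ε => by
      simp only [dt, LinearMap.add_apply, LinearMap.smul_apply, Pi.add_apply, Pi.smul_apply,
        smul_eq_mul]
      ring⟩
  simp only [e]
  by_cases h0 : dt A = 0
  · by_cases h1 : β = 0
    · filter_upwards [self_mem_nhdsWithin] with ε hε
      rw [h0, h1, zero_add, zero_add]
      exact mul_ne_zero hε (mul_ne_zero hε h)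
    · have : ∀ᶠ ε in 𝓝 (0 : ℝ), β + ε * dt N ≠ 0 :=
        (by fun_prop : Continuous fun ε : ℝ => β + ε * dt N).continuousAt.eventually_ne
          (by simpa using h1)
      filter_upwards [self_mem_nhdsWithin, nhdsWithin_le_nhds this] with ε hε k
      rw [h0, zero_add]
      exact mul_ne_zero hε k
  · exact nhdsWithin_le_nhds ((by fun_prop : Continuous fun ε : ℝ =>
      dt A + ε * (β + ε * dt N)).continuousAt.eventually_ne (by simpa using h0))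

/-- **NT-0** -/
theorem nt0' (X Y H P : Type) [NormedAddCommGroup X] [NormedSpace ℝ X] [CompleteSpace X]
    [NormedAddCommGroup Y] [NormedSpace ℝ Y] [CompleteSpace Y] [NormedAddCommGroup H]
    [NormedSpace ℝ H] [CompleteSpace H] [AddCommGroup P] [Module ℝ P] (L : X →L[ℝ] Y)
    (ι : H →L[ℝ] Y) (D : P →ₗ[ℝ] X →L[ℝ] Y) (pr : H →ₗ[ℝ] Fin 2 → ℝ) (k : (Fin 2 → ℝ) →ₗ[ℝ] X)
    (A : (Fin 2 → ℝ) →ₗ[ℝ] H) (B : P →ₗ[ℝ] (Fin 2 → ℝ) →ₗ[ℝ] H) (h1 : Surjective (L.coprod ι))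
    (h2 : ∀ v, pr v = 0 → ∃ z, L z = ι v ∧ ∀ p, D p z = 0) (h3 : ∀ a, L (k a) = ι (A a))
    (h4 : ∀ p a, D p (k a) = ι (B p a)) (h5 : ∀ a ≠ 0, ∀ χ ≠ 0, ∃ p, χ ⬝ᵥ pr (B p a) ≠ 0) :
    ∃ p, ∀ᶠ ε in 𝓝[≠] (0 : ℝ), Surjective (L + ε • D p : X →L[ℝ] Y) := by
  obtain ⟨p, hp⟩ := exists_dt ((LinearMap.llcomp ℝ _ _ _ pr).comp B) h5
  have c : Continuous fun ε : ℝ => L.coprod ι + ε • (D p).coprod (0 : H →L[ℝ] Y) := by fun_prop
  have o := c.continuousAt.eventually (Sard93.isOpen_surj.mem_nhds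
    (show Surjective (L.coprod ι + (0 : ℝ) • (D p).coprod (0 : H →L[ℝ] Y)) by simpa using h1))
  refine ⟨p, ?_⟩
  filter_upwards [ev_dt (pr ∘ₗ A) _ hp, nhdsWithin_le_nhds o] with ε e1 e2 y
  obtain ⟨⟨x, h⟩, rfl⟩ := e2 y
  obtain ⟨a, ha⟩ := surj_of_dt e1 (pr h)
  obtain ⟨z, z1, z2⟩ := h2 (h - A a - ε • B p a) (by
    rw [map_sub, map_sub, map_smul, ← ha]
    simp)
  refine ⟨x + k a + z, ?_⟩
  simp [h3, h4, z1, z2]
  abel

end Crest.Agent.X212.Nt64
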