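import Crest.Agent.X212.Sard93.Loc

/-!
# Row 212, NTG (helper64): the codimension of the range drops along generic lines
-/

set_option autoImplicit false
open Set Function Filter Topology Metric

namespace Crest.Agent.X212.Nt64

variable {X Y : Type} [NormedAddCommGroup X] [NormedSpace ℝ X] [CompleteSpace X]
  [NormedAddCommGroup Y] [NormedSpace ℝ Y] [CompleteSpace Y]

/-- `S` is onto with the bound `C` -/
def Bd (S : X →L[ℝ] Y) (C : ℝ) : Prop := ∀ y, ∃ x, S x = y ∧ ‖x‖ ≤ C * ‖y‖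

omit [CompleteSpace Y] in
/-- analytic families of solutions -/
theorem exists_an {S B : X →L[ℝ] Y} {C : ℝ} (h : Bd S C) (h0 : 0 ≤ C) (hB : C * ‖B‖ ≤ 1 / 2)
    (x₀ : X) : ∃ Z : ℝ → X, AnalyticOnNhd ℝ Z (ball 0 2) ∧ Z 0 = x₀ ∧
      (∀ t ∈ ball (0 : ℝ) 2, S (Z t) + t • B (Z t) = S x₀) ∧ ‖Z 1‖ ≤ 2 * ‖x₀‖ := by
  choose g g1 g2 using h
  let z : ℕ → X := fun k => (fun x => g (-B x))^[k] x₀
  have z1 : ∀ k, z (k + 1) = g (-B (z k)) := fun k => iterate_succ_apply' _ k x₀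
  have z2 : ∀ k, ‖z k‖ ≤ ‖x₀‖ * (1 / 2) ^ k := fun k => by
    induction k with
    | zero => simp [z]
    | succ k i =>
      rw [z1, pow_succ, ← mul_assoc]
      refine (g2 _).trans ?_
      rw [norm_neg]
      calc C * ‖B (z k)‖ ≤ C * (‖B‖ * ‖z k‖) := mul_le_mul_of_nonneg_left (B.le_opNorm _) h0
        _ = ‖z k‖ * (C * ‖B‖) := by ring
        _ ≤ _ := mul_le_mul i hB (by positivity) (by positivity)
  let p : FormalMultilinearSeries ℝ ℝ X := fun k => .mkPiRing ℝ (Fin k) (z k)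
  have r : ((2 : NNReal) : ENNReal) ≤ p.radius := p.le_radius_of_bound ‖x₀‖ fun k => by
    rw [ContinuousMultilinearMap.norm_mkPiRing]
    refine (mul_le_mul_of_nonneg_right (z2 k) (by positivity)).trans_eq ?_
    rw [mul_assoc, ← mul_pow]; simp
  have hp := (p.hasFPowerSeriesOnBall (lt_of_lt_of_le (by simp) r)).mono (by simp) r
  have s : ∀ t ∈ ball (0 : ℝ) 2, HasSum (fun k => t ^ k • z k) (p.sum t) := fun t ht => by
    simpa [p] using hp.hasSum (y := t) (by rwa [Metric.eball_coe])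
  refine ⟨p.sum, by have := hp.analyticOnNhd; rwa [Metric.eball_coe] at this, ?_, fun t ht => ?_, ?_⟩
  · exact (s 0 (by simp)).unique (by
      simpa [z] using hasSum_single (f := fun k => (0 : ℝ) ^ k • z k) 0 fun k hk => by simp [hk])
  · have a := (hasSum_nat_add_iff' 1).2 (S.hasSum (s t ht))
    have b := (B.hasSum (s t ht)).const_smul t
    have c := a.add b
    simp only [z1, map_smul, g1, smul_smul, ← pow_succ', smul_neg, neg_add_cancel] at c
    have := c.unique hasSum_zero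
    simp only [Finset.range_one, Finset.sum_singleton, pow_zero, one_smul] at this
    rw [← sub_eq_zero, ← this]; simp only [z, iterate_zero, id]; abel
  · rw [mul_comm]
    exact ((s 1 (by simp)).norm_le_of_bounded (hasSum_geometric_two.mul_left ‖x₀‖) fun k => by
      simpa using z2 k)

omit [CompleteSpace Y] in
theorem Bd.add {S B : X →L[ℝ] Y} {C : ℝ} (h : Bd S C) (h0 : 0 ≤ C) (hB : C * ‖B‖ ≤ 1 / 2) :
    Bd (S + B) (2 * C) := fun y => by
  obtain ⟨x, rfl, hx⟩ := h y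
  obtain ⟨Z, -, -, h1, h2⟩ := exists_an h h0 hB x
  exact ⟨Z 1, by simpa using h1 1 (by simp), by linarith⟩

variable {F : Type} [NormedAddCommGroup F] [NormedSpace ℝ F] [FiniteDimensional ℝ F]

theorem ev_surj {G : Type} [NormedAddCommGroup G] [NormedSpace ℝ G] [CompleteSpace G]
    {L : X →L[ℝ] Y} {c : G →L[ℝ] Y} (h : Surjective (L.coprod c)) (B : X →L[ℝ] Y) :
    ∀ᶠ ε in 𝓝 (0 : ℝ), ∀ y, ∃ x f, (L + ε • B) x + c f = y := by
  have k : Continuous fun ε : ℝ => L.coprod c + ε • B.coprod (0 : G →L[ℝ] Y) := by fun_prop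
  filter_upwards [k.continuousAt.eventually (Sard93.isOpen_surj.mem_nhds
    (show Surjective (L.coprod c + (0 : ℝ) • B.coprod (0 : G →L[ℝ] Y)) by simpa using h))] with ε e y
  obtain ⟨⟨x, f⟩, rfl⟩ := e y
  exact ⟨x, f, by simp [add_right_comm]⟩

/-- **the analytic line** -/
theorem line {L B : X →L[ℝ] Y} {c : F →L[ℝ] Y} {C : ℝ} (h : Bd (L.coprod c) C) (h0 : 0 ≤ C)
    (hB : C * ‖B‖ ≤ 1 / 4) (h1 : Surjective (L + B : X →L[ℝ] Y)) :
    ∀ᶠ ε in 𝓝[≠] (0 : ℝ), Surjective (L + ε • B : X →L[ℝ] Y) := by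
  have := FiniteDimensional.complete ℝ F
  let B' := B ∘L ContinuousLinearMap.fst ℝ X F
  have n : C * ‖B'‖ ≤ 1 / 4 := (mul_le_mul_of_nonneg_left ((B.opNorm_comp_le _).trans
    (mul_le_of_le_one_right (norm_nonneg _) (ContinuousLinearMap.norm_fst_le ..))) h0).trans hB
  let b := Module.finBasis ℝ F
  choose x hx using fun i => h1 (-c (b i))
  choose Z Z1 Z2 Z3 _ using fun i => exists_an (B := B') (h.add (B := B') h0 (by linarith))
    (by positivity) (by linarith) (x i, b i)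
  let M : ℝ → Matrix (Fin (Module.finrank ℝ F)) (Fin (Module.finrank ℝ F)) ℝ := fun t =>
    b.toMatrix fun i => (Z i t).2
  have a : AnalyticOnNhd ℝ (fun t => (M t).det) (ball 0 2) := fun t ht => by
    simp only [Matrix.det_apply']
    refine Finset.analyticAt_fun_sum _ fun σ _ => analyticAt_const.mul
      (Finset.analyticAt_fun_prod _ fun i _ => ?_)
    exact ((b.coord (σ i)).toContinuousLinearMap.analyticAt _).comp
      (analyticAt_snd.comp (Z1 i t ht))
  have m : (-1 : ℝ) ∈ ball (0 : ℝ) 2 := by simp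
  have e : ∀ᶠ t in 𝓝[≠] (-1 : ℝ), (M t).det ≠ 0 :=
    (a _ m).eventually_eq_zero_or_eventually_ne_zero.resolve_left fun k => by
      have := a.eqOn_zero_of_preconnected_of_eventuallyEq_zero (convex_ball _ _).isPreconnected m k
        (mem_ball_self two_pos)
      simp [M, Z2] at this
  have tr : Tendsto (fun ε : ℝ => ε - 1) (𝓝[≠] 0) (𝓝[≠] (-1)) :=
    tendsto_nhdsWithin_iff.2 ⟨(tendsto_nhdsWithin_of_tendsto_nhds
      (by simpa using (continuous_sub_right (1 : ℝ)).tendsto 0)),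
      eventually_nhdsWithin_of_forall fun ε hε k => hε (by simpa using k)⟩
  filter_upwards [tr.eventually e, tr.eventually (nhdsWithin_le_nhds (isOpen_ball.mem_nhds m)),
    nhdsWithin_le_nhds (ev_surj (fun y => (h y).imp fun _ k => k.1) B)] with ε e1 e2 e3 y
  obtain ⟨u, f, rfl⟩ := e3 y
  have sp := (b.is_basis_iff_det.2 (show IsUnit (b.det fun i => (Z i (ε - 1)).2) from
    e1.isUnit)).2
  obtain ⟨a, ha⟩ := (Submodule.mem_span_range_iff_exists_fun ℝ).1 (sp.ge (Submodule.mem_top (x := f)))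
  have k : ∀ i, c (Z i (ε - 1)).2 = -(L + ε • B) (Z i (ε - 1)).1 := fun i => by
    have h2 := Z3 i _ e2
    have h3 := hx i
    simp only [B', add_apply, ContinuousLinearMap.coprod_apply,
      ContinuousLinearMap.comp_apply, ContinuousLinearMap.coe_fst', sub_smul, one_smul,
      smul_apply] at h2 h3 ⊢
    rw [eq_neg_iff_add_eq_zero] at h3 ⊢
    rw [← h3, ← sub_eq_zero, ← sub_eq_zero.2 h2]; abel
  refine ⟨u - ∑ i, a i • (Z i (ε - 1)).1, ?_⟩
  rw [← ha, map_sub, map_sum, map_sum, sub_eq_add_neg, ← Finset.sum_neg_distrib]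
  simp only [map_smul, k, smul_neg]

/-- **the codimension drops** -/
theorem drop {T B : X →L[ℝ] Y} {c : F →L[ℝ] Y} (h : Surjective (T.coprod c)) {v : X}
    (hv : T v = 0) (hw : B v ∉ range T) : ∃ K : Submodule ℝ F,
      Module.finrank ℝ K < Module.finrank ℝ F ∧
      ∀ᶠ t in 𝓝[≠] (0 : ℝ), Surjective ((T + t • B).coprod (c ∘L K.subtypeL)) := by
  have := FiniteDimensional.complete ℝ F
  obtain ⟨⟨x, f⟩, e⟩ := h (B v)
  have e : T x + c f = B v := e
  have f0 : f ≠ 0 := fun k => hw ⟨x, by simpa [k] using e⟩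
  obtain ⟨φ, hφ⟩ := Module.Projective.exists_dual_eq_one ℝ f0
  refine ⟨LinearMap.ker φ, Submodule.finrank_lt fun k => ?_, ?_⟩
  · exact one_ne_zero (hφ.symm.trans (LinearMap.mem_ker.1 (k.ge Submodule.mem_top)))
  have s : Surjective (T.coprod ((ContinuousLinearMap.toSpanSingleton ℝ (B v)).coprod
      (c ∘L (LinearMap.ker φ).subtypeL))) := fun y => by
    obtain ⟨⟨u, g⟩, rfl⟩ := h y
    refine ⟨(u - φ g • x, φ g, ⟨g - φ g • f, by simp [hφ]⟩), ?_⟩
    simp [← e]
    abel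
  filter_upwards [self_mem_nhdsWithin, nhdsWithin_le_nhds (ev_surj s B)] with t ht e1 y
  obtain ⟨u, ⟨a, g⟩, rfl⟩ := e1 y
  refine ⟨(u + (a * t⁻¹) • v, g), ?_⟩
  simp [hv, smul_smul, mul_left_comm t, mul_inv_cancel₀ (show t ≠ 0 from ht), add_assoc]

/-- **NTG** -/
theorem ntg {P : Type} [AddCommGroup P] [Module ℝ P] (L : X →L[ℝ] Y) (D : P →ₗ[ℝ] X →L[ℝ] Y)
    (c : F →L[ℝ] Y) (hc : Surjective (L.coprod c))
    (hs : ∃ ε > 0, ∀ p, ‖D p‖ < ε → ¬Surjective (L + D p : X →L[ℝ] Y) →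
      ∃ p' v, (L + D p) v = 0 ∧ D p' v ∉ range (L + D p : X →L[ℝ] Y)) :
    ∃ p, ∀ᶠ ε in 𝓝[≠] (0 : ℝ), Surjective (L + ε • D p : X →L[ℝ] Y) := by
  have := FiniteDimensional.complete ℝ F
  obtain ⟨ε, h0, hs⟩ := hs
  obtain ⟨C, C0, hC⟩ := (L.coprod c).exists_preimage_norm_le hc
  have key : ∀ (n : ℕ) (G : Type) [NormedAddCommGroup G] [NormedSpace ℝ G] [FiniteDimensional ℝ G]
      (d : G →L[ℝ] Y) (p : P), Module.finrank ℝ G = n → ‖D p‖ < min ε (1 / 4 / C) →
      Surjective ((L + D p).coprod d) →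
      ∃ p', ‖D p'‖ < min ε (1 / 4 / C) ∧ Surjective (L + D p' : X →L[ℝ] Y) := fun n => by
    induction n using Nat.strong_induction_on with
    | _ n i =>
      intro G _ _ _ d p hn hp hd
      by_cases k : Surjective (L + D p : X →L[ℝ] Y)
      · exact ⟨p, hp, k⟩
      obtain ⟨p', v, h1, h2⟩ := hs p (hp.trans_le (min_le_left _ _)) k
      obtain ⟨K, h3, h4⟩ := drop hd h1 h2
      have h5 : ∀ᶠ t in 𝓝 (0 : ℝ), ‖D p + t • D p'‖ < min ε (1 / 4 / C) :=
        (by fun_prop : Continuous fun t : ℝ => ‖D p + t • D p'‖).continuousAt.eventually_lt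
          continuousAt_const (by simpa using hp)
      obtain ⟨t, h6, h7⟩ := (h4.and (nhdsWithin_le_nhds h5)).exists
      exact i _ (hn ▸ h3) K _ (p + t • p') rfl (by simpa using h7) (by simpa [add_assoc] using h6)
  obtain ⟨p, h1, h2⟩ := key _ F c 0 rfl (by simpa using ⟨h0, C0⟩) (by simpa using hc)
  exact ⟨p, line hC C0.le (by
    rw [mul_comm]; exact (le_div_iff₀ C0).1 (h1.le.trans (min_le_right _ _))) h2⟩

end Crest.Agent.X212.Nt64
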