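import Crest.Agent.X212.Nt64.Ntg

/-!
# Row 212, NT-R (helper64): `ntg` on a set of perturbations that is open along lines
-/

set_option autoImplicit false
noncomputable section
open scoped Topology
open Set Function Filter

namespace Crest.Agent.X212.Nt64

variable {X Y : Type} [NormedAddCommGroup X] [NormedSpace ℝ X] [CompleteSpace X]
  [NormedAddCommGroup Y] [NormedSpace ℝ Y] [CompleteSpace Y]
  {F : Type} [NormedAddCommGroup F] [NormedSpace ℝ F] [FiniteDimensional ℝ F]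
  {P : Type} [AddCommGroup P] [Module ℝ P]

/-- **NTS**: the directions lie in `K`, the running perturbations in `𝒮` -/
theorem nts (L : X →L[ℝ] Y) (D : P →ₗ[ℝ] X →L[ℝ] Y) (c : F →L[ℝ] Y) (hc : Surjective (L.coprod c))
    (K : Submodule ℝ P) (𝒮 : Set P) (h0 : 0 ∈ 𝒮)
    (ho : ∀ p ∈ 𝒮, ∀ p' ∈ K, ∀ᶠ t in 𝓝 (0 : ℝ), p + t • p' ∈ 𝒮)
    (hs : ∀ p ∈ 𝒮, p ∈ K → ¬Surjective (L + D p : X →L[ℝ] Y) →
      ∃ p' ∈ K, ∃ v, (L + D p) v = 0 ∧ D p' v ∉ range (L + D p : X →L[ℝ] Y)) :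
    ∃ p ∈ K, ∀ᶠ ε in 𝓝[≠] (0 : ℝ), Surjective (L + ε • D p : X →L[ℝ] Y) := by
  have := FiniteDimensional.complete ℝ F
  obtain ⟨C, C0, hC⟩ := (L.coprod c).exists_preimage_norm_le hc
  have key : ∀ (n : ℕ) (G : Type) [NormedAddCommGroup G] [NormedSpace ℝ G] [FiniteDimensional ℝ G]
      (d : G →L[ℝ] Y) (p : P), Module.finrank ℝ G = n → p ∈ 𝒮 → p ∈ K → ‖D p‖ < 1 / 4 / C →
      Surjective ((L + D p).coprod d) →
      ∃ p' ∈ K, ‖D p'‖ < 1 / 4 / C ∧ Surjective (L + D p' : X →L[ℝ] Y) := fun n => by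
    induction n using Nat.strong_induction_on with
    | _ n i =>
      intro G _ _ _ d p hn hS hK hp hd
      by_cases k : Surjective (L + D p : X →L[ℝ] Y)
      · exact ⟨p, hK, hp, k⟩
      obtain ⟨p', hK', v, h1, h2⟩ := hs p hS hK k
      obtain ⟨K', h3, h4⟩ := drop hd h1 h2
      have h5 : ∀ᶠ t in 𝓝 (0 : ℝ), ‖D p + t • D p'‖ < 1 / 4 / C :=
        (by fun_prop : Continuous fun t : ℝ => ‖D p + t • D p'‖).continuousAt.eventually_lt
          continuousAt_const (by simpa using hp)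
      obtain ⟨t, h6, h7, h8⟩ := (h4.and (nhdsWithin_le_nhds (h5.and (ho p hS p' hK')))).exists
      exact i _ (hn ▸ h3) K' _ (p + t • p') rfl h8 (add_mem hK (K.smul_mem t hK'))
        (by simpa using h7) (by simpa [add_assoc] using h6)
  obtain ⟨p, hK, h1, h2⟩ := key _ F c 0 rfl h0 K.zero_mem (by simpa using C0) (by simpa using hc)
  exact ⟨p, hK, line hC C0.le (by rw [mul_comm]; exact (le_div_iff₀ C0).1 h1.le) h2⟩

/-- the same, centred at `q`: `T q'` is affine in `q'` -/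
theorem nts' (T : P → X →L[ℝ] Y) (D : P →ₗ[ℝ] X →L[ℝ] Y) (hT : ∀ q p, T (q + p) = T q + D p)
    (q : P) (c : F →L[ℝ] Y) (hc : Surjective ((T q).coprod c)) (K : Submodule ℝ P) (𝒮 : Set P)
    (h0 : q ∈ 𝒮) (ho : ∀ q' ∈ 𝒮, ∀ p ∈ K, ∀ᶠ t in 𝓝 (0 : ℝ), q' + t • p ∈ 𝒮)
    (hs : ∀ q' ∈ 𝒮, (∀ p ∈ K, ∀ v, T q' v = 0 → T (q' + p) v ∈ range (T q')) → Surjective (T q')) :
    ∃ p ∈ K, ∀ᶠ ε in 𝓝[≠] (0 : ℝ), Surjective (T (q + ε • p)) := by
  obtain ⟨p, hK, h⟩ := nts (T q) D c hc K {p | q + p ∈ 𝒮} (by simpa using h0)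
    (fun p hp p' hp' => (ho _ hp p' hp').mono fun t k => by simpa [add_assoc] using k)
    fun p hp _ k => by
      by_contra m
      push Not at m
      rw [← hT] at k m
      exact k (hs _ hp fun p' hp' v hv => by
        rw [hT (q + p) p', add_apply, hv, zero_add]; exact m p' hp' v hv)
  exact ⟨p, hK, h.mono fun ε k => by rwa [hT, map_smul]⟩

end Crest.Agent.X212.Nt64
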